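import Vale.Agent.P177.Lf.Phi
import Vale.Agent.P202.Mix.Build
import Vale.Agent.P177.PI.WIdeal
import Vale.Agent.P177.Perf.PerfHull

/-! P177, block LIFT: the base `ψ : Λ → W(Rp)` factors through `W(k[[t, u]])`; the elements
`t, u` are in the Jacobson radical of a cover; products. -/

namespace Vale.Agent.P177.Lf

open Vale.Agent.P202 Vale.Agent.P202.Mix Vale.Agent.P177.Lev MvPowerSeries IsLocalRing

universe u

/-- (L1): as `exists_isBase`, with the factorisation of `ψ` through `W(k[[t, u]])`. -/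
theorem exists_isBase0 (p : ℕ) [Fact p.Prime] (k : Type u) [Field k] [CharP k p] [PerfectRing k p]
    (r : ℕ) {Cr : Type u} [CommRing Cr] [IsLocalRing Cr]
    (hCr : maximalIdeal Cr = Ideal.span {(p : Cr)}) (κ : Cr →+* WittVector p k) :
    ∃ (ψ0 : MvPowerSeries (Fin r) Cr →+* WittVector p (R0 k r))
      (red : MvPowerSeries (Fin r) Cr →+* R0 k r ⧸ Ideal.span {(MvPowerSeries.X 0 : R0 k r)}),
      IsBase p k r (MvPowerSeries (Fin r) Cr) (fun i => MvPowerSeries.X i)
        ((WittVector.map (PerfectClosure.of (R0 k r) p)).comp ψ0) red ∧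
      (∀ i, ψ0 (MvPowerSeries.X i) = WittVector.teichmuller p (MvPowerSeries.X i.succ)) ∧
      ∀ c : Cr, ψ0 (MvPowerSeries.C c) = WittVector.map MvPowerSeries.C (κ c) := by
  obtain ⟨ψ0, h1, h2, h3, -⟩ := exists_psi0 p k r
  have hX : ∀ i, ψ0 (MvPowerSeries.map κ (MvPowerSeries.X i)) =
      WittVector.teichmuller p (MvPowerSeries.X i.succ) := fun i => by
    rw [MvPowerSeries.map_X, h1]
  -- elements with image divisible by `p`
  have hκ : ∀ c : Cr, (∃ x, κ c = p * x) → c ∈ Ideal.span {(p : Cr)} := by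
    intro c hc
    rw [← hCr, mem_maximalIdeal, mem_nonunits_iff]
    intro hu
    obtain ⟨x, hx⟩ := hc
    have h4 : IsUnit (κ c) := hu.map κ
    have h5 := h4.map (WittVector.constantCoeff : WittVector p k →+* k)
    rw [hx, map_mul, map_natCast, CharP.cast_eq_zero, zero_mul] at h5
    exact not_isUnit_zero h5
  let red : MvPowerSeries (Fin r) Cr →+* R0 k r ⧸ Ideal.span {(MvPowerSeries.X 0 : R0 k r)} :=
    (Ideal.Quotient.mk _).comp
      ((WittVector.constantCoeff).comp (ψ0.comp (MvPowerSeries.map κ)))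
  have hred : ∀ l, red l = Ideal.Quotient.mk _ ((ψ0 (MvPowerSeries.map κ l)).coeff 0) :=
    fun l => rfl
  have hredp : ∀ l ∈ Ideal.span {(p : MvPowerSeries (Fin r) Cr)}, red l = 0 := by
    intro l hl
    obtain ⟨m, rfl⟩ := Ideal.mem_span_singleton.1 hl
    rw [map_mul, map_natCast]
    have h6 : ((p : ℕ) : R0 k r ⧸ Ideal.span {(MvPowerSeries.X 0 : R0 k r)}) = 0 := by
      rw [← map_natCast (Ideal.Quotient.mk (Ideal.span {(MvPowerSeries.X 0 : R0 k r)})),
        CharP.cast_eq_zero, map_zero]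
    rw [h6, zero_mul]
  refine ⟨ψ0.comp (MvPowerSeries.map κ), red, ⟨fun i => ?_, fun l => ?_, hredp, fun l hl => ?_, ?_⟩,
    fun i => hX i, fun c => ?_⟩
  · change WittVector.map _ (ψ0 (MvPowerSeries.map κ (MvPowerSeries.X i))) = _
    rw [hX, WittVector.map_teichmuller]
    rfl
  · refine ⟨(ψ0 (MvPowerSeries.map κ l)).coeff 0, 0, hred l, ?_⟩
    rw [mul_zero, add_zero]
    exact WittVector.map_coeff _ _ _
  · rw [hred, Ideal.Quotient.eq_zero_iff_mem] at hl
    have h7 := h3 _ hl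
    rw [← ibc_ker p r hCr, RingHom.mem_ker]
    obtain ⟨y, hy⟩ := Ideal.mem_span_singleton.1 h7
    ext β
    rw [MvPowerSeries.coeff_map, map_zero, residue_eq_zero_iff, hCr]
    refine hκ _ ⟨MvPowerSeries.coeff β y, ?_⟩
    have h8 := congrArg (MvPowerSeries.coeff β) hy
    have h9 : (p : La p k r) = MvPowerSeries.C (p : WittVector p k) := (map_natCast _ _).symm
    rw [MvPowerSeries.coeff_map, h9, MvPowerSeries.coeff_C_mul] at h8
    exact h8
  · refine ibc_flat p k r hCr _ fun i => ?_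
    rw [Ideal.Quotient.lift_mk, hred, hX, WittVector.teichmuller_coeff_zero]
  · rw [RingHom.comp_apply, MvPowerSeries.map_C, h2]

/-- (L1) for `Λ = W(k)[[u_1, .., u_r]]`. -/
theorem exists_isBaseW (p : ℕ) [Fact p.Prime] (k : Type u) [Field k] [CharP k p] [PerfectRing k p]
    (r : ℕ) :
    ∃ (ψ0 : La p k r →+* WittVector p (R0 k r))
      (red : La p k r →+* R0 k r ⧸ Ideal.span {(MvPowerSeries.X 0 : R0 k r)}),
      IsBase p k r (La p k r) (fun i => MvPowerSeries.X i)
        ((WittVector.map (PerfectClosure.of (R0 k r) p)).comp ψ0) red ∧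
      (∀ i, ψ0 (MvPowerSeries.X i) = WittVector.teichmuller p (MvPowerSeries.X i.succ)) ∧
      ∀ c : WittVector p k, ψ0 (MvPowerSeries.C c) = WittVector.map MvPowerSeries.C c :=
  exists_isBase0 p k r (Cr := WittVector p k) (WittVector.irreducible p).maximalIdeal_eq
    (RingHom.id _)

section

variable {p : ℕ} [hp : Fact p.Prime] {k : Type u} [Field k] [CharP k p] {r : ℕ}

/-- (L6) `t, u_i` are in the Jacobson radical of a cover. -/
theorem xC_mem_jacobson {r0 : ℕ} (d : PExt.{u} p k r r0) (l : Fin (r + 1)) :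
    xC p k r d.C l ∈ (⊥ : Ideal d.C).jacobson := by
  rw [Ideal.jacobson, Ideal.mem_sInf]
  rintro M ⟨-, hM⟩
  have hint := d.integral
  have h1 : (M.comap (algebraMap (Rp p k r) d.C)).IsMaximal :=
    Ideal.isMaximal_comap_of_isIntegral_of_isMaximal M
  have h2 := xp_mem_jacobson p k r l
  rw [Ideal.jacobson, Ideal.mem_sInf] at h2
  exact h2 ⟨bot_le, h1⟩

theorem perfHull_le_radical {C : Type u} [CommRing C] [CharP C p] (P : Ideal C) :
    Perf.perfHull p P ≤ P.radical := by
  rintro x ⟨e, he⟩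
  exact ⟨p ^ e, Ideal.pow_le_self (pow_pos hp.out.pos e).ne' he⟩

/-- (L6) the perfect ideal generated by the `c_l` is in the Jacobson radical. -/
theorem perfHull_le_jacobson {r0 : ℕ} (d : PExt.{u} p k r r0) {n : ℕ} (c : Fin n → d.C)
    (hc : ∀ l, ∃ D : ℕ, c l ^ D ∈ Ideal.span (Set.range (xC p k r d.C))) :
    Perf.perfHull p (Ideal.span (Set.range c)) ≤ (⊥ : Ideal d.C).jacobson := by
  have h1 : Ideal.span (Set.range (xC p k r d.C)) ≤ (⊥ : Ideal d.C).jacobson := by
    rw [Ideal.span_le]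
    rintro _ ⟨l, rfl⟩
    exact xC_mem_jacobson d l
  have h2 : (⊥ : Ideal d.C).jacobson.radical = (⊥ : Ideal d.C).jacobson :=
    Ideal.isRadical_jacobson _ |>.radical
  refine (perfHull_le_radical _).trans ?_
  rw [← h2, ← Ideal.radical_idem (⊥ : Ideal d.C).jacobson]
  apply Ideal.radical_mono
  rw [Ideal.span_le]
  rintro _ ⟨l, rfl⟩
  obtain ⟨D, hD⟩ := hc l
  exact ⟨D, h1 hD⟩

/-- (L6) values of power series without constant term. -/
theorem phi_mem_WI {C : Type u} [CommRing C] [CharP C p] {B : Type*} [CommRing B] {n : ℕ}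
    (c : Fin n → C) (φ : MvPowerSeries (Fin n) B →+* WittVector p C)
    (hφ : ∀ l, φ (X l) = WittVector.teichmuller p (c l)) {g : MvPowerSeries (Fin n) B}
    (hg : g ∈ Ideal.span (Set.range (X : Fin n → MvPowerSeries (Fin n) B))) :
    φ g ∈ PI.WI p (Perf.perfHull p (Ideal.span (Set.range c))) := by
  have h1 : Ideal.span (Set.range (X : Fin n → MvPowerSeries (Fin n) B)) ≤
      (PI.WI p (Perf.perfHull p (Ideal.span (Set.range c)))).comap φ := by
    rw [Ideal.span_le]
    rintro _ ⟨l, rfl⟩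
    rw [SetLike.mem_coe, Ideal.mem_comap, hφ]
    exact PI.te_mem_WI p (Perf.le_perfHull (Ideal.subset_span ⟨l, rfl⟩))
  exact h1 hg

end

end Vale.Agent.P177.Lf
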