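import Vale.Agent.P177.Lf.Rel
import Vale.Agent.P177.CohenSurj

/-!
P177, LIFT (L5): compatibility of `S = W[[x]] → R` with the polynomials over `Λ`.
-/

namespace Vale.Agent.P177.Lf

open Polynomial IsLocalRing

/-- every power series is a polynomial plus an element of `(x_1 ^ N, .., x_n ^ N)`. -/
theorem exists_trunc {W : Type*} [CommRing W] [IsNoetherianRing W] {n : ℕ} (N : ℕ)
    (g : MvPowerSeries (Fin n) W) : ∃ (P : MvPolynomial (Fin n) W)
      (q : Fin n → MvPowerSeries (Fin n) W),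
      g = P + ∑ l, MvPowerSeries.X l ^ N * q l := by
  obtain ⟨P, q, h⟩ := wdiv (⊥ : Ideal W) (fun _ : Fin n => (X ^ N : W[X]))
    (fun _ => monic_X_pow N) (fun _ i hi => by
      nontriviality W
      rw [natDegree_X_pow] at hi
      rw [coeff_X_pow, if_neg hi.ne]
      exact zero_mem _) g
  refine ⟨P, q, ?_⟩
  have h1 : ∀ l : Fin n, (px l (X ^ N : W[X]) : MvPowerSeries (Fin n) W) =
      MvPowerSeries.X l ^ N := by
    intro l
    rw [px, map_pow, aeval_X, ← MvPolynomial.coeToMvPowerSeries.ringHom_apply, map_pow,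
      MvPolynomial.coeToMvPowerSeries.ringHom_apply, MvPolynomial.coe_X]
  simpa only [h1] using h

/-- homomorphisms on power series rings are determined by the constants and the variables. -/
theorem hom_ext_of_hausdorff {W : Type*} [CommRing W] [IsNoetherianRing W] {n : ℕ} {R : Type*}
    [CommRing R] (J : Ideal R) [IsHausdorff J R] (α β : MvPowerSeries (Fin n) W →+* R)
    (hJ : ∀ l, α (MvPowerSeries.X l) ∈ J)
    (hC : ∀ a, α (MvPowerSeries.C a) = β (MvPowerSeries.C a))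
    (hX : ∀ l, α (MvPowerSeries.X l) = β (MvPowerSeries.X l)) : α = β := by
  have hpoly : ∀ P : MvPolynomial (Fin n) W, α P = β P := by
    intro P
    have h1 : α.comp MvPolynomial.coeToMvPowerSeries.ringHom =
        β.comp MvPolynomial.coeToMvPowerSeries.ringHom := by
      apply MvPolynomial.ringHom_ext
      · intro a
        simpa using hC a
      · intro l
        simpa using hX l
    exact congrArg (fun f : MvPolynomial (Fin n) W →+* R => f P) h1
  ext g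
  rw [← sub_eq_zero]
  refine IsHausdorff.haus (I := J) inferInstance _ fun N => ?_
  rw [SModEq.zero, smul_eq_mul, Ideal.mul_top]
  obtain ⟨P, q, rfl⟩ := exists_trunc N g
  rw [map_add, map_add, hpoly, add_sub_add_left_eq_sub, map_sum, map_sum,
    ← Finset.sum_sub_distrib]
  refine Ideal.sum_mem _ fun l _ => ?_
  rw [map_mul, map_mul, map_pow, map_pow, ← hX, ← mul_sub]
  exact Ideal.mul_mem_right _ _ (Ideal.pow_mem_pow (hJ l) N)

section

variable {W Λ R : Type*} [CommRing W] [IsNoetherianRing W] [CommRing Λ] [IsNoetherianRing Λ]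
  (I : Ideal Λ) [IsAdicComplete I Λ] [CommRing R] [Algebra Λ R] (𝔪 : Ideal R)
  [IsAdicComplete 𝔪 R] (κ : W →+* Λ) {n : ℕ} (Φ : MvPowerSeries (Fin n) W →+* R)

omit [IsNoetherianRing Λ] in
/-- the evaluation homomorphism `Λ[[x]] → R` extending `Φ : W[[x]] → R`. -/
theorem exists_qR (hΦC : ∀ a, Φ (MvPowerSeries.C a) = algebraMap Λ R (κ a))
    (hΦX : ∀ l, Φ (MvPowerSeries.X l) ∈ 𝔪) :
    ∃ q : MvPowerSeries (Fin n) Λ →+* R,
      (∀ f : MvPolynomial (Fin n) Λ, q f =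
        MvPolynomial.aeval (fun l => Φ (MvPowerSeries.X l)) f) ∧
      q.comp (MvPowerSeries.map κ) = Φ := by
  obtain ⟨q, hq⟩ := exists_evalHom 𝔪 (algebraMap Λ R) (fun l => Φ (MvPowerSeries.X l)) hΦX
  refine ⟨q, fun f => hq f, ?_⟩
  have hqX : ∀ l, (q.comp (MvPowerSeries.map κ)) (MvPowerSeries.X l) =
      Φ (MvPowerSeries.X l) := by
    intro l
    rw [RingHom.comp_apply, MvPowerSeries.map_X, ← MvPolynomial.coe_X, hq]
    simp
  refine hom_ext_of_hausdorff 𝔪 _ _ (fun l => ?_) (fun a => ?_) hqX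
  · rw [hqX]; exact hΦX l
  · rw [RingHom.comp_apply, MvPowerSeries.map_C, ← MvPolynomial.coe_C, hq, hΦC]
    simp

/-- **(L5)** `W[[x]] → R → R / 𝔥` and the polynomials over `Λ`. -/
theorem compat_S (𝔥 : Ideal R) [Module.Finite Λ (R ⧸ 𝔥)]
    (hΦC : ∀ a, Φ (MvPowerSeries.C a) = algebraMap Λ R (κ a))
    (hΦX : ∀ l, Φ (MvPowerSeries.X l) ∈ 𝔪)
    (hpow : ∃ M : ℕ, 𝔪 ^ M ≤ 𝔥 ⊔ I.map (algebraMap Λ R))
    {A : Type*} [CommRing A] (φ : MvPowerSeries (Fin n) Λ →+* A) (K : Ideal A) (h : A)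
    (hK : ∀ f : MvPolynomial (Fin n) Λ,
      MvPolynomial.aeval (fun l => Φ (MvPowerSeries.X l)) f ∈ 𝔥 → h * φ f ∈ K)
    (s : MvPowerSeries (Fin n) W) (f : MvPolynomial (Fin n) Λ)
    (hs : Φ s - MvPolynomial.aeval (fun l => Φ (MvPowerSeries.X l)) f ∈ 𝔥) :
    h * (φ (MvPowerSeries.map κ s) - φ f) ∈ K := by
  obtain ⟨q, hq, hqΦ⟩ := exists_qR 𝔪 κ Φ hΦC hΦX
  have hmk : ∀ f : MvPolynomial (Fin n) Λ,
      ((Ideal.Quotient.mk 𝔥).comp q) f =
        MvPolynomial.aeval (fun l => Ideal.Quotient.mk 𝔥 (Φ (MvPowerSeries.X l))) f := by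
    intro f
    rw [RingHom.comp_apply, hq]
    have := MvPolynomial.comp_aeval_apply (Ideal.Quotient.mkₐ Λ 𝔥)
      (f := fun l => Φ (MvPowerSeries.X l)) f
    exact this
  have key := phi_rel' I (fun l => Ideal.Quotient.mk 𝔥 (Φ (MvPowerSeries.X l)))
    (fun l => ?_) ((Ideal.Quotient.mk 𝔥).comp q) hmk φ K h (fun f hf => ?_)
    (MvPowerSeries.map κ s - f) ?_
  · rwa [map_sub] at key
  · obtain ⟨M, hM⟩ := hpow
    refine ⟨M, ?_⟩
    have h1 := hM (Ideal.pow_mem_pow (hΦX l) M)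
    have h2 := Ideal.mem_map_of_mem (Ideal.Quotient.mk 𝔥) h1
    rw [Ideal.map_sup, Ideal.map_quotient_self, bot_sup_eq, map_pow, Ideal.map_map] at h2
    exact h2
  · apply hK
    rw [← hmk, RingHom.comp_apply, Ideal.Quotient.eq_zero_iff_mem, hq] at hf
    exact hf
  · rw [RingHom.comp_apply, Ideal.Quotient.eq_zero_iff_mem, map_sub, hq, ← RingHom.comp_apply,
      hqΦ]
    exact hs

/-- every element of `R` is a polynomial in the `x_l` modulo `𝔥`. -/
theorem exists_poly_of_surjective (𝔥 : Ideal R) [Module.Finite Λ (R ⧸ 𝔥)]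
    (hΦC : ∀ a, Φ (MvPowerSeries.C a) = algebraMap Λ R (κ a))
    (hΦX : ∀ l, Φ (MvPowerSeries.X l) ∈ 𝔪)
    (hpow : ∃ M : ℕ, 𝔪 ^ M ≤ 𝔥 ⊔ I.map (algebraMap Λ R)) (s : MvPowerSeries (Fin n) W) :
    ∃ f : MvPolynomial (Fin n) Λ,
      Φ s - MvPolynomial.aeval (fun l => Φ (MvPowerSeries.X l)) f ∈ 𝔥 := by
  obtain ⟨q, hq, hqΦ⟩ := exists_qR 𝔪 κ Φ hΦC hΦX
  obtain ⟨M, hM⟩ := hpow
  have h1 : ∀ l, ∃ F : Λ[X], F.Monic ∧ (∀ i < F.natDegree, F.coeff i ∈ I) ∧
      aeval (Ideal.Quotient.mk 𝔥 (Φ (MvPowerSeries.X l))) F = 0 := fun l => by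
    refine exists_monic_lower I _ (N := M) ?_
    have h1 := hM (Ideal.pow_mem_pow (hΦX l) M)
    have h2 := Ideal.mem_map_of_mem (Ideal.Quotient.mk 𝔥) h1
    rw [Ideal.map_sup, Ideal.map_quotient_self, bot_sup_eq, map_pow, Ideal.map_map] at h2
    exact h2
  choose F hF hFI hFx using h1
  obtain ⟨P, r, he⟩ := wdiv I F hF hFI (MvPowerSeries.map κ s)
  refine ⟨P, ?_⟩
  have h2 : Φ s = q (MvPowerSeries.map κ s) := by
    rw [← RingHom.comp_apply, hqΦ]
  rw [h2, he, map_add, hq, add_sub_cancel_left, map_sum]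
  refine Ideal.sum_mem _ fun l _ => ?_
  rw [map_mul]
  refine Ideal.mul_mem_right _ _ ?_
  rw [hq, px, ← Polynomial.aeval_algHom_apply, MvPolynomial.aeval_X,
    ← Ideal.Quotient.eq_zero_iff_mem]
  have := (Polynomial.aeval_algHom_apply (Ideal.Quotient.mkₐ Λ 𝔥)
    (Φ (MvPowerSeries.X l)) (F l)).symm
  exact this.trans (hFx l)

end

end Vale.Agent.P177.Lf
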