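import Mathlib

/-! P177, block LIFT: completeness of finite algebras, comparison of adic topologies. -/

namespace Vale.Agent.P177.Lf

open TensorProduct

universe u

theorem isPrecomplete_of_finite {R : Type u} [CommRing R] (I : Ideal R) [IsPrecomplete I R]
    (M : Type u) [AddCommGroup M] [Module R M] [Module.Finite R M] : IsPrecomplete I M := by
  rw [← AdicCompletion.of_surjective_iff]
  intro x
  obtain ⟨y, rfl⟩ := AdicCompletion.ofTensorProduct_surjective_of_finite I M x
  induction y using TensorProduct.induction_on with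
  | zero => exact ⟨0, by rw [map_zero, map_zero]⟩
  | tmul a m =>
    obtain ⟨r, rfl⟩ := AdicCompletion.of_surjective I R a
    refine ⟨r • m, ?_⟩
    rw [AdicCompletion.ofTensorProduct_tmul, map_smul]
    exact (algebraMap_smul (AdicCompletion I R) r (AdicCompletion.of I M m)).symm
  | add x y hx hy =>
    obtain ⟨a, ha⟩ := hx
    obtain ⟨b, hb⟩ := hy
    exact ⟨a + b, by rw [map_add, map_add, ha, hb]⟩

/-- a ring which is complete for `I` is complete for every `J ⊇ I` with `J ^ N ⊆ I`. -/
theorem isAdicComplete_of_le {A : Type*} [CommRing A] {I J : Ideal A} [hI : IsAdicComplete I A]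
    (h1 : I ≤ J) {N : ℕ} (h2 : J ^ N ≤ I) : IsAdicComplete J A := by
  have h3 : ∀ n, J ^ (N * n) ≤ I ^ n := fun n => by
    rw [pow_mul]
    exact Ideal.pow_right_mono h2 n
  refine { haus' := ?_, prec' := ?_ }
  · intro x hx
    apply IsHausdorff.haus (I := I) inferInstance
    intro n
    have := hx (N * n)
    rw [SModEq.zero, smul_eq_mul, Ideal.mul_top] at this ⊢
    exact h3 n this
  · intro f hf
    have hf' : ∀ {m n : ℕ}, m ≤ n → f n - f m ∈ J ^ m := fun {m n} hmn => by
      have := hf hmn
      rw [SModEq.sub_mem, smul_eq_mul, Ideal.mul_top] at this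
      rwa [← neg_mem_iff, neg_sub]
    obtain ⟨L, hL⟩ := IsPrecomplete.prec (I := I) (M := A) inferInstance
      (f := fun n => f (N * n)) (fun {m n} hmn => by
        rw [SModEq.sub_mem, smul_eq_mul, Ideal.mul_top, ← neg_mem_iff, neg_sub]
        exact h3 m (hf' (Nat.mul_le_mul_left N hmn)))
    refine ⟨L, fun n => ?_⟩
    rw [SModEq.sub_mem, smul_eq_mul, Ideal.mul_top]
    have h4 : f (N * n) - L ∈ J ^ n := by
      have := hL n
      rw [SModEq.sub_mem, smul_eq_mul, Ideal.mul_top] at this
      exact Ideal.pow_right_mono h1 n this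
    rcases Nat.eq_zero_or_pos N with hN | hN
    · subst hN
      rw [pow_zero] at h2
      have h5 : J = ⊤ := top_le_iff.1 (by
        have : (⊤ : Ideal A) ≤ J := by
          rw [← Ideal.one_eq_top]
          exact h2.trans h1
        exact this)
      rw [h5, Ideal.top_pow]
      trivial
    · have h6 : f (N * n) - f n ∈ J ^ n := hf' (Nat.le_mul_of_pos_left n hN)
      have h7 := sub_mem h4 h6
      rw [sub_sub_sub_cancel_left] at h7
      exact h7

/-- finite algebras over complete noetherian local rings are complete, also for all ideals with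
the same radical. -/
theorem isAdicComplete_finite {R A : Type u} [CommRing R] [IsLocalRing R] [IsNoetherianRing R]
    (I : Ideal R) (hI : I ≠ ⊤) [IsAdicComplete I R] [CommRing A] [Algebra R A] [Module.Finite R A]
    {J : Ideal A} (h1 : I.map (algebraMap R A) ≤ J)
    (h2 : J ≤ (I.map (algebraMap R A)).radical) : IsAdicComplete J A := by
  have hprec : IsPrecomplete I A := isPrecomplete_of_finite I A
  have hhaus : IsHausdorff I A := IsHausdorff.of_isLocalRing I A hI
  have hcomp : IsAdicComplete I A := { hprec, hhaus with }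
  have hJc : IsAdicComplete (I.map (algebraMap R A)) A :=
    (IsAdicComplete.map_algebraMap_iff _ _).2 hcomp
  have hN : IsNoetherianRing A := IsNoetherianRing.of_finite R A
  obtain ⟨N, hN⟩ := Ideal.exists_pow_le_of_le_radical_of_fg h2 (IsNoetherian.noetherian J)
  exact isAdicComplete_of_le h1 hN

end Vale.Agent.P177.Lf
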