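import Mathlib

/-! P177, block LIFT: evaluation of power series at Teichmueller representatives of elements of an
ideal for which the ring is complete. -/

namespace Vale.Agent.P177.Lf

open MvPowerSeries

universe u

section

variable (p : ℕ) [hp : Fact p.Prime] {A : Type*} [CommRing A] (J : Ideal A)

/-- elements of `W(A)` are determined by their images in all `W(A/J^N)`. -/
theorem extW [IsHausdorff J A] {z z' : WittVector p A}
    (h : ∀ N, WittVector.map (Ideal.Quotient.mk (J ^ N)) z =
      WittVector.map (Ideal.Quotient.mk (J ^ N)) z') : z = z' := by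
  ext n
  rw [← sub_eq_zero]
  apply IsHausdorff.haus (I := J) inferInstance
  intro N
  rw [SModEq.zero, smul_eq_mul, Ideal.mul_top, ← Ideal.Quotient.eq_zero_iff_mem, map_sub,
    sub_eq_zero]
  have := congrArg (fun w => WittVector.coeff w n) (h N)
  simpa only [WittVector.map_coeff] using this

/-- compatible families in `W(A/J^N)` come from `W(A)`. -/
theorem glueW [IsPrecomplete J A] (z : ∀ N, WittVector p (A ⧸ J ^ N))
    (hz : ∀ N, WittVector.map (Ideal.Quotient.factorPow J (Nat.le_succ N)) (z (N + 1)) = z N) :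
    ∃ w : WittVector p A, ∀ N, WittVector.map (Ideal.Quotient.mk (J ^ N)) w = z N := by
  have hz' : ∀ n N : ℕ, Ideal.Quotient.factorPow J (Nat.le_succ N) ((z (N + 1)).coeff n) =
      (z N).coeff n := fun n N => by
    have := congrArg (fun w => WittVector.coeff w n) (hz N)
    simpa only [WittVector.map_coeff] using this
  choose a ha using fun (n N : ℕ) => Ideal.Quotient.mk_surjective ((z N).coeff n)
  have hstep : ∀ n N : ℕ, a n (N + 1) - a n N ∈ J ^ N := fun n N => by
    rw [← Ideal.Quotient.eq_zero_iff_mem, map_sub, ha, ← hz', ← ha n (N + 1), sub_eq_zero]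
    rfl
  have hle : ∀ n {M N : ℕ}, M ≤ N → a n N - a n M ∈ J ^ M := fun n M N hMN => by
    induction N, hMN using Nat.le_induction with
    | base => simp
    | succ N hN ih =>
      have h1 := Ideal.add_mem _ (Ideal.pow_le_pow_right hN (hstep n N)) ih
      rwa [sub_add_sub_cancel] at h1
  have hlim : ∀ n, ∃ L : A, ∀ N, a n N - L ∈ J ^ N := fun n => by
    obtain ⟨L, hL⟩ := IsPrecomplete.prec (I := J) (M := A) inferInstance (f := a n)
      (fun {M N} hMN => by
        rw [SModEq.sub_mem, smul_eq_mul, Ideal.mul_top, ← neg_mem_iff, neg_sub]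
        exact hle n hMN)
    refine ⟨L, fun N => ?_⟩
    have := hL N
    rwa [SModEq.sub_mem, smul_eq_mul, Ideal.mul_top] at this
  choose L hL using hlim
  refine ⟨WittVector.mk p L, fun N => ?_⟩
  ext n
  rw [WittVector.map_coeff, WittVector.coeff_mk, ← ha n N, eq_comm, ← sub_eq_zero, ← map_sub,
    Ideal.Quotient.eq_zero_iff_mem]
  exact hL n N

variable {B : Type*} [CommRing B] {n : ℕ} (σ : B →+* WittVector p A) (x : Fin n → A)

/-- the evaluation modulo `J^N` on polynomials. -/
noncomputable def evN (N : ℕ) : MvPolynomial (Fin n) B →+* WittVector p (A ⧸ J ^ N) :=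
  MvPolynomial.eval₂Hom ((WittVector.map (Ideal.Quotient.mk (J ^ N))).comp σ)
    (fun l => WittVector.teichmuller p (Ideal.Quotient.mk (J ^ N) (x l)))

theorem evN_eq (N : ℕ) (f : MvPolynomial (Fin n) B) :
    evN p J σ x N f = WittVector.map (Ideal.Quotient.mk (J ^ N))
      (MvPolynomial.eval₂Hom σ (fun l => WittVector.teichmuller p (x l)) f) := by
  rw [evN, ← RingHom.comp_apply]
  congr 1
  apply MvPolynomial.ringHom_ext
  · intro b
    simp
  · intro l
    simp [WittVector.map_teichmuller]

theorem evN_zero (hx : ∀ l, x l ∈ J) (N : ℕ) {q : MvPolynomial (Fin n) B}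
    (hq : q ∈ MvPolynomial.idealOfVars (Fin n) B ^ N) : evN p J σ x N q = 0 := by
  rw [MvPolynomial.mem_pow_idealOfVars_iff] at hq
  rw [evN, MvPolynomial.coe_eval₂Hom, MvPolynomial.eval₂_eq']
  refine Finset.sum_eq_zero fun d hd => ?_
  have h1 : ∏ i, WittVector.teichmuller p (Ideal.Quotient.mk (J ^ N) (x i)) ^ d i =
      WittVector.teichmuller p (Ideal.Quotient.mk (J ^ N) (∏ i, x i ^ d i)) := by
    simp only [map_prod, map_pow]
  rw [h1]
  have h2 : (∏ i, x i ^ d i) ∈ J ^ N := by
    have h3 : (∏ i, x i ^ d i) ∈ ∏ i : Fin n, J ^ d i :=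
      Ideal.prod_mem_prod fun i _ => Ideal.pow_mem_pow (hx i) _
    rw [Finset.prod_pow_eq_pow_sum, ← Finsupp.degree_eq_sum] at h3
    exact Ideal.pow_le_pow_right (hq d hd) h3
  rw [Ideal.Quotient.eq_zero_iff_mem.2 h2, WittVector.teichmuller_zero, mul_zero]

/-- (L0): evaluation of power series at Teichmueller representatives. -/
theorem exists_evalW [IsAdicComplete J A] (hx : ∀ l, x l ∈ J) :
    ∃ φ : MvPowerSeries (Fin n) B →+* WittVector p A, ∀ f : MvPolynomial (Fin n) B,
      φ (f : MvPowerSeries (Fin n) B) =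
        MvPolynomial.eval₂Hom σ (fun l => WittVector.teichmuller p (x l)) f := by
  let φN : ∀ N, MvPowerSeries (Fin n) B →+* WittVector p (A ⧸ J ^ N) := fun N =>
    (Ideal.Quotient.lift (MvPolynomial.idealOfVars (Fin n) B ^ N) (evN p J σ x N)
      (fun _ hq => evN_zero p J σ x hx N hq)).comp (truncTotalAlgHom (Fin n) B N).toRingHom
  have hφN : ∀ N g, φN N g = evN p J σ x N (truncTotal N g) := fun N g => rfl
  have hcompat : ∀ N g, WittVector.map (Ideal.Quotient.factorPow J (Nat.le_succ N))
      (φN (N + 1) g) = φN N g := by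
    intro N g
    rw [hφN, hφN, evN_eq, ← RingHom.comp_apply]
    have h0 : (WittVector.map (p := p) (Ideal.Quotient.factorPow J (Nat.le_succ N))).comp
        (WittVector.map (Ideal.Quotient.mk (J ^ (N + 1)))) =
        WittVector.map (Ideal.Quotient.mk (J ^ N)) := by
      ext w m
      simp only [RingHom.comp_apply, WittVector.map_coeff]
      rfl
    rw [h0, ← evN_eq, ← sub_eq_zero, ← map_sub]
    apply evN_zero p J σ x hx
    exact truncTotal_sub_truncTotal_mem_pow_idealOfVars (Nat.le_succ N) le_rfl g
  choose φ hφ using fun g => glueW p J (fun N => φN N g) (fun N => hcompat N g)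
  refine ⟨{ toFun := φ, map_one' := ?_, map_mul' := ?_, map_zero' := ?_, map_add' := ?_ }, ?_⟩
  · exact extW p J fun N => by rw [hφ, map_one, map_one]
  · intro f g
    exact extW p J fun N => by rw [hφ, map_mul, map_mul, hφ, hφ]
  · exact extW p J fun N => by rw [hφ, map_zero, map_zero]
  · intro f g
    exact extW p J fun N => by rw [hφ, map_add, map_add, hφ, hφ]
  · intro f
    refine extW p J fun N => ?_
    change WittVector.map (Ideal.Quotient.mk (J ^ N)) (φ (f : MvPowerSeries (Fin n) B)) = _
    rw [hφ, hφN, ← evN_eq, ← sub_eq_zero, ← map_sub]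
    apply evN_zero p J σ x hx
    have h2 := (truncTotalAlgHom (Fin n) B N).commutes f
    have h3 : (Ideal.Quotient.mk (MvPolynomial.idealOfVars (Fin n) B ^ N))
        (truncTotal N (f : MvPowerSeries (Fin n) B)) = Ideal.Quotient.mk _ f := h2
    rw [← Ideal.Quotient.eq_zero_iff_mem, map_sub, h3, sub_self]

end

end Vale.Agent.P177.Lf
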