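import Vale.Agent.P202.Mix.IsBaseC
import Vale.Agent.P177.Lev.Defs
import Vale.Agent.P177.Lf.EvalW
import Vale.Agent.P177.Lf.Compl

/-! P177, block LIFT: the homomorphism `Λ[[x_1, .., x_n]] → W(C)`, `x_l ↦ [c_l]`. -/

namespace Vale.Agent.P177.Lf

open Vale.Agent.P202.Mix Vale.Agent.P177.Lev MvPowerSeries

universe u

section

variable (p : ℕ) [hp : Fact p.Prime] (k : Type u) [Field k] [CharP k p] (r : ℕ)

/-- `k[[t, u]] → C`. -/
noncomputable def r0C (C : Type u) [CommRing C] [Algebra (Rp p k r) C] : R0 k r →+* C :=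
  (algebraMap (Rp p k r) C).comp (PerfectClosure.of (R0 k r) p)

theorem integral_Rp (x : Rp p k r) : (PerfectClosure.of (R0 k r) p).IsIntegralElem x := by
  obtain ⟨n, y, hy⟩ := IsPRadical.pow_mem (PerfectClosure.of (R0 k r) p) p x
  have h : (PerfectClosure.of (R0 k r) p).IsIntegralElem (x ^ p ^ n) := by
    rw [← hy]
    exact RingHom.isIntegralElem_map _
  let _ : Algebra (R0 k r) (Rp p k r) := (PerfectClosure.of (R0 k r) p).toAlgebra
  exact IsIntegral.of_pow (R := R0 k r) (pow_pos hp.out.pos n) h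

variable {p k r}

theorem integral_r0C {r0 : ℕ} (d : PExt.{u} p k r r0) : (r0C p k r d.C).IsIntegral := by
  have h1 : (PerfectClosure.of (R0 k r) p).IsIntegral := fun x => integral_Rp p k r x
  have h2 : (algebraMap (Rp p k r) d.C).IsIntegral := fun x => d.integral.isIntegral x
  exact RingHom.IsIntegral.trans _ _ h1 h2

theorem xC_eq {C : Type u} [CommRing C] [Algebra (Rp p k r) C] (l : Fin (r + 1)) :
    xC p k r C l = r0C p k r C (X l) := rfl

/-- (L2) the evaluation homomorphism `Λ[[x_1, .., x_n]] → W(C)`, `x_l ↦ [c_l]`. -/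
theorem exists_phi {Λ : Type u} [CommRing Λ] (ψ0 : Λ →+* WittVector p (R0 k r)) {r0 : ℕ}
    (d : PExt.{u} p k r r0) {n : ℕ} (c : Fin n → d.C)
    (hc : ∀ l, ∃ D : ℕ, c l ^ D ∈ Ideal.span (Set.range (xC p k r d.C))) :
    ∃ φ : MvPowerSeries (Fin n) Λ →+* WittVector p d.C, ∀ f : MvPolynomial (Fin n) Λ,
      φ (f : MvPowerSeries (Fin n) Λ) = MvPolynomial.eval₂Hom
        (laW ((WittVector.map (PerfectClosure.of (R0 k r) p)).comp ψ0) d.C)
        (fun l => WittVector.teichmuller p (c l)) f := by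
  classical
  let _ : Algebra (R0 k r) d.C := (r0C p k r d.C).toAlgebra
  have halg : algebraMap (R0 k r) d.C = r0C p k r d.C := rfl
  choose D hD using hc
  have h1 : ∀ l, ∃ a : Fin (r + 1) → d.C, ∑ i, a i * xC p k r d.C i = c l ^ D l := fun l =>
    Ideal.mem_span_range_iff_exists_fun.1 (hD l)
  choose a ha using h1
  let S : Set d.C := Set.range c ∪ Set.range (fun q : Fin n × Fin (r + 1) => a q.1 q.2)
  have hSfin : S.Finite := (Set.finite_range _).union (Set.finite_range _)
  let A : Subalgebra (R0 k r) d.C := Algebra.adjoin (R0 k r) S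
  have hAfg : A.toSubmodule.FG := fg_adjoin_of_finite hSfin fun x _ => integral_r0C d x
  have hAfin : Module.Finite (R0 k r) A := Module.Finite.iff_fg.2 hAfg
  have hNoeth : IsNoetherianRing (R0 k r) :=
    inferInstanceAs (IsNoetherianRing (MvPowerSeries (Fin (r + 1)) k))
  let m : Ideal (R0 k r) := Ideal.span (Set.range X)
  have hcm : IsAdicComplete m (R0 k r) :=
    inferInstanceAs (IsAdicComplete (Ideal.span (Set.range X)) (MvPowerSeries (Fin (r + 1)) k))
  have hm : m ≠ ⊤ := by
    intro h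
    have h2 : (1 : R0 k r) ∈ m := by rw [h]; trivial
    have h3 : m ≤ RingHom.ker (constantCoeff (σ := Fin (r + 1)) (R := k)) := by
      rw [Ideal.span_le]
      rintro _ ⟨i, rfl⟩
      rw [SetLike.mem_coe, RingHom.mem_ker]
      exact constantCoeff_X i
    have h4 := h3 h2
    rw [RingHom.mem_ker, map_one] at h4
    exact one_ne_zero h4
  let cA : Fin n → A := fun l => ⟨c l, Algebra.subset_adjoin (Or.inl ⟨l, rfl⟩)⟩
  let aA : Fin n → Fin (r + 1) → A := fun l i =>
    ⟨a l i, Algebra.subset_adjoin (Or.inr ⟨(l, i), rfl⟩)⟩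
  let J : Ideal A := m.map (algebraMap (R0 k r) A) ⊔ Ideal.span (Set.range cA)
  have hcD : ∀ l, cA l ^ D l ∈ m.map (algebraMap (R0 k r) A) := by
    intro l
    have h2 : cA l ^ D l = ∑ i, aA l i * algebraMap (R0 k r) A (X i) := by
      apply Subtype.ext
      rw [AddSubmonoidClass.coe_finsetSum]
      change c l ^ D l = _
      rw [← ha l]
      rfl
    rw [h2]
    exact Ideal.sum_mem _ fun i _ => Ideal.mul_mem_left _ _
      (Ideal.mem_map_of_mem _ (Ideal.subset_span ⟨i, rfl⟩))
  have hJrad : J ≤ (m.map (algebraMap (R0 k r) A)).radical := by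
    refine sup_le Ideal.le_radical ?_
    rw [Ideal.span_le]
    rintro _ ⟨l, rfl⟩
    exact ⟨D l, hcD l⟩
  have hJ : IsAdicComplete J A := isAdicComplete_finite m hm le_sup_left hJrad
  obtain ⟨φ, hφ⟩ := exists_evalW p J ((WittVector.map (algebraMap (R0 k r) A)).comp ψ0) cA
    (fun l => (le_sup_right : _ ≤ J) (Ideal.subset_span ⟨l, rfl⟩))
  refine ⟨(WittVector.map A.val.toRingHom).comp φ, fun f => ?_⟩
  rw [RingHom.comp_apply, hφ, ← RingHom.comp_apply]
  congr 1
  apply MvPolynomial.ringHom_ext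
  · intro b
    rw [RingHom.comp_apply, MvPolynomial.eval₂Hom_C, MvPolynomial.eval₂Hom_C]
    ext j
    simp only [laW, RingHom.comp_apply, WittVector.map_coeff]
    rfl
  · intro l
    rw [RingHom.comp_apply, MvPolynomial.eval₂Hom_X', MvPolynomial.eval₂Hom_X',
      WittVector.map_teichmuller]
    rfl

end

end Vale.Agent.P177.Lf
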