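import Vale.Agent.P177.Lf.WDiv

/-!
P177, LIFT (L4): the kernel of `Λ[[x]] → R̄` is generated by polynomials, `R̄` finite over `Λ`.
-/

namespace Vale.Agent.P177.Lf

open Polynomial IsLocalRing

theorem exists_monic_lower {Λ : Type*} [CommRing Λ] (I : Ideal Λ) {Rb : Type*} [CommRing Rb]
    [Algebra Λ Rb] [Module.Finite Λ Rb] (x : Rb) {N : ℕ}
    (hx : x ^ N ∈ I.map (algebraMap Λ Rb)) :
    ∃ F : Λ[X], F.Monic ∧ (∀ i < F.natDegree, F.coeff i ∈ I) ∧ aeval x F = 0 := by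
  have hx' : x ^ (N + 1) ∈ I.map (algebraMap Λ Rb) := by
    rw [pow_succ]
    exact Ideal.mul_mem_right _ _ hx
  have hr : LinearMap.range (Algebra.lmul Λ Rb (x ^ (N + 1))) ≤
      I • (⊤ : Submodule Λ Rb) := by
    rintro _ ⟨y, rfl⟩
    rw [Ideal.smul_top_eq_map, Submodule.restrictScalars_mem]
    change x ^ (N + 1) * y ∈ _
    exact Ideal.mul_mem_right _ _ hx'
  obtain ⟨P, h1, -, h2, h3⟩ :=
    LinearMap.exists_monic_and_natDegree_eq_and_coeff_mem_pow_and_aeval_eq_zero Λ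
      (Algebra.lmul Λ Rb (x ^ (N + 1))) I hr
  refine ⟨expand Λ (N + 1) P, h1.expand (Nat.succ_pos N), ?_, ?_⟩
  · intro i hi
    rw [natDegree_expand] at hi
    rw [coeff_expand (Nat.succ_pos N)]
    split_ifs with h4
    · have h5 : i / (N + 1) < P.natDegree := Nat.div_lt_of_lt_mul (by rwa [mul_comm])
      have h6 := h2 (i / (N + 1))
      exact Ideal.pow_le_self (by omega) h6
    · exact zero_mem _
  · rw [expand_aeval]
    have h4 := congrArg (fun f : Module.End Λ Rb => f 1) h3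
    rw [aeval_algHom_apply] at h4
    simpa using h4

/-- (L4) for an arbitrary noetherian `I`-adically complete ring `Λ`. -/
theorem phi_rel' {Λ : Type*} [CommRing Λ] [IsNoetherianRing Λ] (I : Ideal Λ) [IsAdicComplete I Λ]
    {Rb : Type*} [CommRing Rb] [Algebra Λ Rb] [Module.Finite Λ Rb] {n : ℕ} (xb : Fin n → Rb)
    (hx : ∀ l, ∃ N : ℕ, xb l ^ N ∈ I.map (algebraMap Λ Rb))
    (q : MvPowerSeries (Fin n) Λ →+* Rb)
    (hq : ∀ f : MvPolynomial (Fin n) Λ, q f = MvPolynomial.aeval xb f)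
    {A : Type*} [CommRing A] (φ : MvPowerSeries (Fin n) Λ →+* A) (K : Ideal A) (h : A)
    (hK : ∀ f : MvPolynomial (Fin n) Λ, MvPolynomial.aeval xb f = 0 → h * φ f ∈ K) :
    ∀ g, q g = 0 → h * φ g ∈ K := by
  intro g hg
  have h1 : ∀ l, ∃ F : Λ[X], F.Monic ∧ (∀ i < F.natDegree, F.coeff i ∈ I) ∧
      aeval (xb l) F = 0 := fun l => by
    obtain ⟨N, hN⟩ := hx l
    exact exists_monic_lower I (xb l) hN
  choose F hF hFI hFx using h1
  obtain ⟨P, r, rfl⟩ := wdiv I F hF hFI g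
  have hp : ∀ l, MvPolynomial.aeval xb (px l (F l)) = 0 := by
    intro l
    rw [px, ← Polynomial.aeval_algHom_apply, MvPolynomial.aeval_X]
    exact hFx l
  have hP : MvPolynomial.aeval xb P = 0 := by
    rw [map_add, hq, map_sum] at hg
    rw [Finset.sum_eq_zero, add_zero] at hg
    · exact hg
    · intro l _
      rw [map_mul, hq, hp, zero_mul]
  rw [map_add, mul_add, map_sum, Finset.mul_sum]
  refine add_mem (hK P hP) (Ideal.sum_mem _ fun l _ => ?_)
  rw [map_mul, ← mul_assoc]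
  exact Ideal.mul_mem_right _ _ (hK _ (hp l))

/-- **(L4)** -/
theorem phi_rel {Λ : Type*} [CommRing Λ] [IsLocalRing Λ] [IsNoetherianRing Λ]
    [IsAdicComplete (maximalIdeal Λ) Λ]
    {Rb : Type*} [CommRing Rb] [Algebra Λ Rb] [Module.Finite Λ Rb] {n : ℕ} (xb : Fin n → Rb)
    (hx : ∀ l, xb l ∈ ((maximalIdeal Λ).map (algebraMap Λ Rb)).radical)
    (q : MvPowerSeries (Fin n) Λ →+* Rb)
    (hq : ∀ f : MvPolynomial (Fin n) Λ, q f = MvPolynomial.aeval xb f)
    {A : Type*} [CommRing A] (φ : MvPowerSeries (Fin n) Λ →+* A) (K : Ideal A) (h : A)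
    (hK : ∀ f : MvPolynomial (Fin n) Λ, MvPolynomial.aeval xb f = 0 → h * φ f ∈ K) :
    ∀ g, q g = 0 → h * φ g ∈ K :=
  phi_rel' (maximalIdeal Λ) xb (fun l => hx l) q hq φ K h hK

end Vale.Agent.P177.Lf
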