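import Vale.Agent.P202.Mix.CohenStr
import Vale.Agent.P177.Lf.Compl

/-! P177, block LIFT: the kernel of `Λ[[x]] → Rb`, `Rb` finite over `Λ = K[[u]]`, is generated by
polynomials. -/

namespace Vale.Agent.P177.Lfk

open Vale.Agent.P202 Vale.Agent.P202.Mix MvPowerSeries IsLocalRing Vale.Agent.P177.Lf

universe u

section Trunc

variable {B : Type*} [CommRing B] {n : ℕ}

/-- a power series is a polynomial up to the powers of the variables. -/
theorem exists_trunc (g : MvPowerSeries (Fin n) B) (M : ℕ) :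
    ∃ f : MvPolynomial (Fin n) B, g - (f : MvPowerSeries (Fin n) B) ∈
      (Ideal.span (Set.range X) : Ideal (MvPowerSeries (Fin n) B)) ^ M := by
  refine ⟨truncTotal M g, ?_⟩
  rw [CZ.mem_pow_iff]
  intro d hd
  rw [map_sub, MvPolynomial.coeff_coe, coeff_truncTotal g hd, sub_self]

theorem sub_C_mem (g : MvPowerSeries (Fin n) B) : g - C (constantCoeff g) ∈
    (Ideal.span (Set.range X) : Ideal (MvPowerSeries (Fin n) B)) := by
  rw [CZ.mem_span_X_iff, map_sub, constantCoeff_C, sub_self]

end Trunc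

section Ker

variable {K : Type u} [CommRing K] [IsLocalRing K] [IsNoetherianRing K] {r n : ℕ}
variable {Rb : Type u} [CommRing Rb] [Algebra (MvPowerSeries (Fin r) K) Rb] (xb : Fin n → Rb)

/-- the ideal generated by the polynomial relations of `xb`. -/
noncomputable def polyKer : Ideal (MvPowerSeries (Fin n) (MvPowerSeries (Fin r) K)) :=
  Ideal.span {g | ∃ f : MvPolynomial (Fin n) (MvPowerSeries (Fin r) K),
    MvPolynomial.aeval xb f = 0 ∧ (f : MvPowerSeries (Fin n) (MvPowerSeries (Fin r) K)) = g}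

omit [IsLocalRing K] [IsNoetherianRing K] in
theorem coe_mem_polyKer {f : MvPolynomial (Fin n) (MvPowerSeries (Fin r) K)}
    (hf : MvPolynomial.aeval xb f = 0) :
    (f : MvPowerSeries (Fin n) (MvPowerSeries (Fin r) K)) ∈ polyKer xb :=
  Ideal.subset_span ⟨f, hf, rfl⟩

/-- the maximal ideal of `Λ[[x]]`. -/
theorem maximalIdeal_le {Λ : Type*} [CommRing Λ] [IsLocalRing Λ] :
    maximalIdeal (MvPowerSeries (Fin n) Λ) ≤ (Ideal.span (Set.range X)) ⊔
      (maximalIdeal Λ).map (C (σ := Fin n) (R := Λ)) := by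
  intro g hg
  have h1 := sub_C_mem g
  have h2 : constantCoeff g ∈ maximalIdeal Λ := by
    rw [mem_maximalIdeal, mem_nonunits_iff] at hg ⊢
    intro h
    exact hg (isUnit_iff_constantCoeff.2 h)
  have h3 : g = (g - C (constantCoeff g)) + C (constantCoeff g) := by ring
  rw [h3]
  exact Ideal.add_mem _ (Ideal.mem_sup_left h1)
    (Ideal.mem_sup_right (Ideal.mem_map_of_mem _ h2))

variable (ϖ : K) (hϖ : maximalIdeal K = Ideal.span {ϖ}) [IsPrecomplete (Ideal.span {ϖ}) K]
  (hrad : ∀ l, xb l ∈ ((maximalIdeal (MvPowerSeries (Fin r) K)).map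
    (algebraMap (MvPowerSeries (Fin r) K) Rb)).radical)
  (hadj : ∀ z : Rb, ∃ f : MvPolynomial (Fin n) (MvPowerSeries (Fin r) K),
    MvPolynomial.aeval xb f = z)

omit [IsNoetherianRing K] in
include hrad hadj in
theorem X_pow_mem (l : Fin n) : ∃ N : ℕ,
    (X l : MvPowerSeries (Fin n) (MvPowerSeries (Fin r) K)) ^ N ∈
      polyKer xb ⊔ (maximalIdeal (MvPowerSeries (Fin r) K)).map C := by
  obtain ⟨N, hN⟩ := hrad l
  refine ⟨N, ?_⟩
  have h1 : ∀ y ∈ (maximalIdeal (MvPowerSeries (Fin r) K)).map
      (algebraMap (MvPowerSeries (Fin r) K) Rb),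
      ∃ f : MvPolynomial (Fin n) (MvPowerSeries (Fin r) K), MvPolynomial.aeval xb f = y ∧
        (f : MvPowerSeries (Fin n) (MvPowerSeries (Fin r) K)) ∈
          (maximalIdeal (MvPowerSeries (Fin r) K)).map C := by
    intro y hy
    refine Submodule.span_induction (p := fun y _ =>
      ∃ f : MvPolynomial (Fin n) (MvPowerSeries (Fin r) K), MvPolynomial.aeval xb f = y ∧
        (f : MvPowerSeries (Fin n) (MvPowerSeries (Fin r) K)) ∈
          (maximalIdeal (MvPowerSeries (Fin r) K)).map C) ?_ ?_ ?_ ?_ hy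
    · rintro _ ⟨a, ha, rfl⟩
      refine ⟨MvPolynomial.C a, ?_, ?_⟩
      · simp
      · rw [MvPolynomial.coe_C]
        exact Ideal.mem_map_of_mem _ ha
    · exact ⟨0, by simp, by simp⟩
    · rintro _ _ _ _ ⟨f, rfl, hf⟩ ⟨g, rfl, hg⟩
      exact ⟨f + g, by simp, by rw [MvPolynomial.coe_add]; exact Ideal.add_mem _ hf hg⟩
    · rintro z _ _ ⟨f, rfl, hf⟩
      obtain ⟨g, rfl⟩ := hadj z
      exact ⟨g * f, by simp, by rw [MvPolynomial.coe_mul]; exact Ideal.mul_mem_left _ _ hf⟩
  obtain ⟨f, hf, hf'⟩ := h1 _ hN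
  have h2 : MvPolynomial.aeval xb (MvPolynomial.X l ^ N - f) = 0 := by
    rw [map_sub, map_pow, MvPolynomial.aeval_X, hf, sub_self]
  have h3 := coe_mem_polyKer xb h2
  have h4 : (X l : MvPowerSeries (Fin n) (MvPowerSeries (Fin r) K)) ^ N =
      ((MvPolynomial.X l ^ N - f : MvPolynomial (Fin n) (MvPowerSeries (Fin r) K)) :
        MvPowerSeries (Fin n) (MvPowerSeries (Fin r) K)) + f := by
    rw [← MvPolynomial.coe_add, sub_add_cancel, MvPolynomial.coe_pow, MvPolynomial.coe_X]
  rw [h4]
  exact Ideal.add_mem _ (Ideal.mem_sup_left h3) (Ideal.mem_sup_right hf')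

include hϖ in
/-- every power series is a polynomial in a quotient in which the variables are nilpotent modulo
the maximal ideal of `Λ`. -/
theorem exists_poly_aux {Q : Type u} [CommRing Q] [IsLocalRing Q]
    (π : MvPowerSeries (Fin n) (MvPowerSeries (Fin r) K) →+* Q) (hπ : Function.Surjective π)
    (hJ : ∀ l, ∃ N : ℕ, π (X l) ^ N ∈ (maximalIdeal (MvPowerSeries (Fin r) K)).map (π.comp C))
    (g : MvPowerSeries (Fin n) (MvPowerSeries (Fin r) K)) :
    ∃ f : MvPolynomial (Fin n) (MvPowerSeries (Fin r) K),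
      π g = π (f : MvPowerSeries (Fin n) (MvPowerSeries (Fin r) K)) := by
  classical
  have hΛN : IsNoetherianRing (MvPowerSeries (Fin r) K) :=
    inferInstanceAs (IsNoetherianRing (MvPowerSeries (Fin r) K))
  have hSN : IsNoetherianRing (MvPowerSeries (Fin n) (MvPowerSeries (Fin r) K)) :=
    inferInstanceAs (IsNoetherianRing (MvPowerSeries (Fin n) (MvPowerSeries (Fin r) K)))
  have hQN : IsNoetherianRing Q := isNoetherianRing_of_surjective _ _ π hπ
  have hloc : IsLocalHom π := IsLocalHom.of_surjective π hπ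
  have hmQ : (maximalIdeal (MvPowerSeries (Fin n) (MvPowerSeries (Fin r) K))).map π =
      maximalIdeal Q := map_maximalIdeal_of_surjective π hπ
  have hmem : ∀ g, g ∈ maximalIdeal (MvPowerSeries (Fin n) (MvPowerSeries (Fin r) K)) →
      π g ∈ maximalIdeal Q := fun g hg => by
    rw [← hmQ]
    exact Ideal.mem_map_of_mem _ hg
  have hCm : ∀ a : MvPowerSeries (Fin r) K, a ∈ maximalIdeal (MvPowerSeries (Fin r) K) →
      (C a : MvPowerSeries (Fin n) (MvPowerSeries (Fin r) K)) ∈ maximalIdeal _ := by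
    intro a ha
    rw [mem_maximalIdeal, mem_nonunits_iff] at ha ⊢
    intro h
    apply ha
    have := isUnit_iff_constantCoeff.1 h
    rwa [constantCoeff_C] at this
  have hKm : ∀ a : K, a ∈ maximalIdeal K →
      (C a : MvPowerSeries (Fin r) K) ∈ maximalIdeal _ := by
    intro a ha
    rw [mem_maximalIdeal, mem_nonunits_iff] at ha ⊢
    intro h
    apply ha
    have := isUnit_iff_constantCoeff.1 h
    rwa [constantCoeff_C] at this
  have hXm : ∀ i : Fin r, (X i : MvPowerSeries (Fin r) K) ∈ maximalIdeal _ := by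
    intro i
    rw [mem_maximalIdeal, mem_nonunits_iff]
    intro h
    have := isUnit_iff_constantCoeff.1 h
    rw [constantCoeff_X] at this
    exact not_isUnit_zero this
  set φ' : MvPowerSeries (Fin r) K →+* Q := π.comp C with hφ'
  have hrad2 : maximalIdeal Q ≤ ((maximalIdeal (MvPowerSeries (Fin r) K)).map φ').radical := by
    rw [← hmQ]
    refine (Ideal.map_mono maximalIdeal_le).trans ?_
    rw [Ideal.map_sup, Ideal.map_map]
    refine sup_le ?_ Ideal.le_radical
    rw [Ideal.map_span, Ideal.span_le]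
    rintro _ ⟨_, ⟨l, rfl⟩, rfl⟩
    exact hJ l
  obtain ⟨M, hM⟩ := Ideal.exists_pow_le_of_le_radical_of_fg hrad2
    (IsNoetherian.noetherian (maximalIdeal Q))
  have hmapeq : (maximalIdeal (MvPowerSeries (Fin r) K)).map φ' ≤
      Ideal.span ({φ' (C ϖ)} ∪ Set.range fun i => φ' (X i)) := by
    refine (Ideal.map_mono maximalIdeal_le).trans ?_
    rw [Ideal.map_sup, Ideal.map_span, Ideal.map_map, hϖ, Ideal.map_span, Set.image_singleton,
      ← Set.range_comp, Ideal.span_union, sup_comm]
    exact le_rfl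
  have hfin : φ'.Finite := by
    refine mc_finite ϖ φ' ?_ ?_ ?_ (hM.trans hmapeq)
    · intro z
      obtain ⟨g, rfl⟩ := hπ z
      refine ⟨constantCoeff (constantCoeff g), ?_⟩
      have h1 : π g - φ' (C (constantCoeff (constantCoeff g))) =
          π (g - C (constantCoeff g)) + π (C (constantCoeff g -
            C (constantCoeff (constantCoeff g)))) := by
        rw [← map_add]
        change π g - π (C (C _)) = _
        rw [← map_sub]
        congr 1
        rw [map_sub]
        ring
      rw [h1]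
      refine Ideal.add_mem _ (hmem _ ?_) (hmem _ (hCm _ ?_))
      · rw [mem_maximalIdeal, mem_nonunits_iff]
        intro h
        have := isUnit_iff_constantCoeff.1 h
        rw [map_sub, constantCoeff_C, sub_self] at this
        exact not_isUnit_zero this
      · rw [mem_maximalIdeal, mem_nonunits_iff]
        intro h
        have := isUnit_iff_constantCoeff.1 h
        rw [map_sub, constantCoeff_C, sub_self] at this
        exact not_isUnit_zero this
    · exact hmem _ (hCm _ (hKm _ (by rw [hϖ]; exact Ideal.mem_span_singleton_self _)))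
    · exact fun i => hmem _ (hCm _ (hXm i))
  let _ : Algebra (MvPowerSeries (Fin r) K) Q := φ'.toAlgebra
  have hfin' : Module.Finite (MvPowerSeries (Fin r) K) Q := hfin
  -- Nakayama
  let ev : MvPolynomial (Fin n) (MvPowerSeries (Fin r) K) →ₐ[MvPowerSeries (Fin r) K] Q :=
    MvPolynomial.aeval fun l => π (X l)
  have hev : ∀ f : MvPolynomial (Fin n) (MvPowerSeries (Fin r) K),
      ev f = π (f : MvPowerSeries (Fin n) (MvPowerSeries (Fin r) K)) := by
    intro f
    have h1 : (ev : MvPolynomial (Fin n) (MvPowerSeries (Fin r) K) →+* Q) =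
        π.comp MvPolynomial.coeToMvPowerSeries.ringHom := by
      apply MvPolynomial.ringHom_ext
      · intro a
        simp [ev]
        rfl
      · intro l
        simp [ev]
    exact RingHom.congr_fun h1 f
  have htop2 : LinearMap.range ev.toLinearMap = ⊤ := by
    have h1 : (⊤ : Submodule (MvPowerSeries (Fin r) K) Q) ≤
        LinearMap.range ev.toLinearMap ⊔ maximalIdeal (MvPowerSeries (Fin r) K) • ⊤ := by
      intro z _
      obtain ⟨g, rfl⟩ := hπ z
      obtain ⟨f, hf⟩ := exists_trunc g M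
      have h2 : π g = ev f + π (g - f) := by
        rw [hev, ← map_add]
        congr 1
        ring
      rw [h2]
      refine Submodule.add_mem _ (Submodule.mem_sup_left ⟨f, rfl⟩) (Submodule.mem_sup_right ?_)
      rw [Ideal.smul_top_eq_map, Submodule.restrictScalars_mem]
      apply hM
      have h3 : (Ideal.span (Set.range X) :
          Ideal (MvPowerSeries (Fin n) (MvPowerSeries (Fin r) K))) ≤ maximalIdeal _ := by
        rw [Ideal.span_le]
        rintro _ ⟨l, rfl⟩
        rw [SetLike.mem_coe, mem_maximalIdeal, mem_nonunits_iff]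
        intro h
        have := isUnit_iff_constantCoeff.1 h
        rw [constantCoeff_X] at this
        exact not_isUnit_zero this
      have h4 := Ideal.mem_map_of_mem π (Ideal.pow_right_mono h3 M hf)
      rw [Ideal.map_pow, hmQ] at h4
      exact h4
    refine top_le_iff.1 (Submodule.le_of_le_smul_of_le_jacobson_bot
      (Module.Finite.fg_top) (maximalIdeal_le_jacobson _) h1)
  have h5 : π g ∈ LinearMap.range ev.toLinearMap := by rw [htop2]; trivial
  obtain ⟨f, hf⟩ := h5
  refine ⟨f, ?_⟩
  rw [← hev]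
  exact hf.symm

include hϖ hrad hadj in
/-- modulo the polynomial relations every power series is a polynomial. -/
theorem exists_poly (g : MvPowerSeries (Fin n) (MvPowerSeries (Fin r) K)) :
    ∃ f : MvPolynomial (Fin n) (MvPowerSeries (Fin r) K),
      g - (f : MvPowerSeries (Fin n) (MvPowerSeries (Fin r) K)) ∈ polyKer xb := by
  by_cases htop : polyKer (r := r) (K := K) xb = ⊤
  · exact ⟨0, by rw [htop]; trivial⟩
  have hQn : Nontrivial (MvPowerSeries (Fin n) (MvPowerSeries (Fin r) K) ⧸
      polyKer (r := r) (K := K) xb) := Ideal.Quotient.nontrivial_iff.2 htop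
  have hQl : IsLocalRing (MvPowerSeries (Fin n) (MvPowerSeries (Fin r) K) ⧸
      polyKer (r := r) (K := K) xb) :=
    IsLocalRing.of_surjective' (Ideal.Quotient.mk _) Ideal.Quotient.mk_surjective
  obtain ⟨f, hf⟩ := exists_poly_aux ϖ hϖ
    (Ideal.Quotient.mk (polyKer (r := r) (K := K) xb)) Ideal.Quotient.mk_surjective (fun l => by
      obtain ⟨N, hN⟩ := X_pow_mem xb hrad hadj l
      refine ⟨N, ?_⟩
      rw [← map_pow]
      have h1 := Ideal.mem_map_of_mem (Ideal.Quotient.mk (polyKer (r := r) (K := K) xb)) hN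
      rw [Ideal.map_sup, Ideal.map_map] at h1
      have h2 : (polyKer (r := r) (K := K) xb).map
          (Ideal.Quotient.mk (polyKer (r := r) (K := K) xb)) = ⊥ := Ideal.map_quotient_self _
      rw [h2, bot_sup_eq] at h1
      exact h1) g
  exact ⟨f, Ideal.Quotient.eq.1 hf⟩

include hϖ hrad hadj in
/-- (L4) the kernel of `Λ[[x]] → Rb` is generated by polynomials. -/
theorem ker_le_polyKer (q : MvPowerSeries (Fin n) (MvPowerSeries (Fin r) K) →+* Rb)
    (hq : ∀ f : MvPolynomial (Fin n) (MvPowerSeries (Fin r) K),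
      q (f : MvPowerSeries (Fin n) (MvPowerSeries (Fin r) K)) = MvPolynomial.aeval xb f)
    {g : MvPowerSeries (Fin n) (MvPowerSeries (Fin r) K)} (hg : q g = 0) : g ∈ polyKer xb := by
  obtain ⟨f, hf⟩ := exists_poly xb ϖ hϖ hrad hadj g
  have h1 : polyKer xb ≤ RingHom.ker q := by
    rw [polyKer, Ideal.span_le]
    rintro _ ⟨f, hf, rfl⟩
    rw [SetLike.mem_coe, RingHom.mem_ker, hq, hf]
  have h2 := h1 hf
  rw [RingHom.mem_ker, map_sub, hg, hq, zero_sub, neg_eq_zero] at h2
  have h3 : g = (g - f) + f := by ring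
  rw [h3]
  exact Ideal.add_mem _ hf (coe_mem_polyKer xb h2)

include hϖ hrad hadj in
/-- (L4) relations between power series from relations between polynomials. -/
theorem phi_rel (q : MvPowerSeries (Fin n) (MvPowerSeries (Fin r) K) →+* Rb)
    (hq : ∀ f : MvPolynomial (Fin n) (MvPowerSeries (Fin r) K),
      q (f : MvPowerSeries (Fin n) (MvPowerSeries (Fin r) K)) = MvPolynomial.aeval xb f)
    {W : Type*} [CommRing W] (φ : MvPowerSeries (Fin n) (MvPowerSeries (Fin r) K) →+* W)
    (I : Ideal W) (h : W)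
    (hrel : ∀ f : MvPolynomial (Fin n) (MvPowerSeries (Fin r) K), MvPolynomial.aeval xb f = 0 →
      h * φ (f : MvPowerSeries (Fin n) (MvPowerSeries (Fin r) K)) ∈ I)
    (g : MvPowerSeries (Fin n) (MvPowerSeries (Fin r) K)) (hg : q g = 0) : h * φ g ∈ I := by
  have h1 := ker_le_polyKer xb ϖ hϖ hrad hadj q hq hg
  refine Submodule.span_induction (p := fun g _ => h * φ g ∈ I) ?_ ?_ ?_ ?_ h1
  · rintro _ ⟨f, hf, rfl⟩
    exact hrel f hf
  · rw [map_zero, mul_zero]
    exact I.zero_mem
  · intro x y _ _ hx hy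
    rw [map_add, mul_add]
    exact I.add_mem hx hy
  · intro a x _ hx
    rw [smul_eq_mul, map_mul, mul_left_comm]
    exact I.mul_mem_left _ hx

end Ker

end Vale.Agent.P177.Lfk
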