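import Vale.Agent.P177.Lf.RelK
import Vale.Agent.P177.CohenSurj

/-! P177, block LIFT: power series over `K` acting through `Λ[[x]]`. -/

namespace Vale.Agent.P177.Lfk

open Vale.Agent.P202 Vale.Agent.P202.Mix MvPowerSeries IsLocalRing Vale.Agent.P177.Lf

universe u

section

variable {K : Type u} [CommRing K] [IsLocalRing K] [IsNoetherianRing K] {r n : ℕ}
variable {Rb : Type u} [CommRing Rb] [Algebra (MvPowerSeries (Fin r) K) Rb]

/-- (L3) `K[[x]] → Λ[[x]]`. -/
noncomputable def jS (K : Type u) [CommRing K] (r n : ℕ) :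
    MvPowerSeries (Fin n) K →+* MvPowerSeries (Fin n) (MvPowerSeries (Fin r) K) :=
  MvPowerSeries.map C

omit [IsLocalRing K] [IsNoetherianRing K] in
theorem jS_X (l : Fin n) : jS K r n (X l) = X l := map_X _ _

omit [IsLocalRing K] [IsNoetherianRing K] in
theorem jS_C (a : K) : jS K r n (C a) = C (C a) := map_C _ _

omit [IsLocalRing K] [IsNoetherianRing K] in
theorem jS_coe (f : MvPolynomial (Fin n) K) :
    jS K r n (f : MvPowerSeries (Fin n) K) =
      ((MvPolynomial.map C f : MvPolynomial (Fin n) (MvPowerSeries (Fin r) K)) :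
        MvPowerSeries (Fin n) (MvPowerSeries (Fin r) K)) := by
  have h : (jS K r n).comp MvPolynomial.coeToMvPowerSeries.ringHom =
      MvPolynomial.coeToMvPowerSeries.ringHom.comp
        (MvPolynomial.map (C : K →+* MvPowerSeries (Fin r) K)) := by
    apply MvPolynomial.ringHom_ext
    · intro a
      simp [jS_C]
    · intro l
      simp [jS_X]
  exact RingHom.congr_fun h f

variable (qS : MvPowerSeries (Fin n) K →+* Rb)
  (hqC : ∀ a : K, qS (C a) = algebraMap (MvPowerSeries (Fin r) K) Rb (C a))

omit [IsLocalRing K] [IsNoetherianRing K] in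
include hqC in
theorem qS_coe (f : MvPolynomial (Fin n) K) : qS (f : MvPowerSeries (Fin n) K) =
    MvPolynomial.aeval (fun l => qS (X l))
      (MvPolynomial.map C f : MvPolynomial (Fin n) (MvPowerSeries (Fin r) K)) := by
  have h : qS.comp MvPolynomial.coeToMvPowerSeries.ringHom =
      (MvPolynomial.aeval (R := MvPowerSeries (Fin r) K) (fun l => qS (X l))).toRingHom.comp
        (MvPolynomial.map (C : K →+* MvPowerSeries (Fin r) K)) := by
    apply MvPolynomial.ringHom_ext
    · intro a
      simp [hqC]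
    · intro l
      simp
  exact RingHom.congr_fun h f

omit [IsLocalRing K] [IsNoetherianRing K] in
theorem map_span_X_le {B A : Type*} [CommRing B] [CommRing A] (q : MvPowerSeries (Fin n) B →+* A)
    (M : ℕ) {s : MvPowerSeries (Fin n) B}
    (hs : s ∈ (Ideal.span (Set.range X) : Ideal (MvPowerSeries (Fin n) B)) ^ M) :
    q s ∈ Ideal.span (Set.range fun l => q (X l)) ^ M := by
  have h1 := Ideal.mem_map_of_mem q hs
  rw [Ideal.map_pow, Ideal.map_span, ← Set.range_comp] at h1
  exact h1

variable (hsurj : Function.Surjective qS)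
  (hrad : ∀ l, qS (X l) ∈ ((maximalIdeal (MvPowerSeries (Fin r) K)).map
    (algebraMap (MvPowerSeries (Fin r) K) Rb)).radical)

include hqC hsurj hrad in
/-- (L5a) `Rb` is generated over `Λ` by the `x_l`. -/
theorem adj_surj [Module.Finite (MvPowerSeries (Fin r) K) Rb] (z : Rb) :
    ∃ f : MvPolynomial (Fin n) (MvPowerSeries (Fin r) K),
      MvPolynomial.aeval (fun l => qS (X l)) f = z := by
  have hfg : (Ideal.span (Set.range fun l => qS (X l))).FG :=
    Submodule.fg_span (Set.finite_range _)
  have hle : Ideal.span (Set.range fun l => qS (X l)) ≤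
      ((maximalIdeal (MvPowerSeries (Fin r) K)).map
        (algebraMap (MvPowerSeries (Fin r) K) Rb)).radical := by
    rw [Ideal.span_le]
    rintro _ ⟨l, rfl⟩
    exact hrad l
  obtain ⟨M, hM⟩ := Ideal.exists_pow_le_of_le_radical_of_fg hle hfg
  have htop2 : LinearMap.range (MvPolynomial.aeval (R := MvPowerSeries (Fin r) K)
      (fun l => qS (X l))).toLinearMap = ⊤ := by
    have h1 : (⊤ : Submodule (MvPowerSeries (Fin r) K) Rb) ≤
        LinearMap.range (MvPolynomial.aeval (R := MvPowerSeries (Fin r) K)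
          (fun l => qS (X l))).toLinearMap ⊔ maximalIdeal (MvPowerSeries (Fin r) K) • ⊤ := by
      intro z _
      obtain ⟨s, rfl⟩ := hsurj z
      obtain ⟨f, hf⟩ := exists_trunc s M
      have h2 : qS s = MvPolynomial.aeval (fun l => qS (X l))
          (MvPolynomial.map C f : MvPolynomial (Fin n) (MvPowerSeries (Fin r) K)) +
          qS (s - f) := by
        rw [← qS_coe qS hqC, ← map_add]
        congr 1
        ring
      rw [h2]
      refine Submodule.add_mem _ (Submodule.mem_sup_left ⟨_, rfl⟩) (Submodule.mem_sup_right ?_)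
      rw [Ideal.smul_top_eq_map, Submodule.restrictScalars_mem]
      exact hM (map_span_X_le qS M hf)
    exact top_le_iff.1 (Submodule.le_of_le_smul_of_le_jacobson_bot
      (Module.Finite.fg_top) (maximalIdeal_le_jacobson _) h1)
  have h5 : z ∈ LinearMap.range (MvPolynomial.aeval (R := MvPowerSeries (Fin r) K)
      (fun l => qS (X l))).toLinearMap := by rw [htop2]; trivial
  exact h5

include hqC hsurj in
/-- (L5b) the extension of `K[[x]] → Rb` to `Λ[[x]]`. -/
theorem exists_q (htop : Ideal.span (Set.range (X : Fin n → MvPowerSeries (Fin n) K)) ≠ ⊤) :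
    ∃ q : MvPowerSeries (Fin n) (MvPowerSeries (Fin r) K) →+* Rb,
      (∀ f : MvPolynomial (Fin n) (MvPowerSeries (Fin r) K),
        q (f : MvPowerSeries (Fin n) (MvPowerSeries (Fin r) K)) =
          MvPolynomial.aeval (fun l => qS (X l)) f) ∧
      ∀ s, q (jS K r n s) = qS s := by
  have hSN : IsNoetherianRing (MvPowerSeries (Fin n) K) :=
    inferInstanceAs (IsNoetherianRing (MvPowerSeries (Fin n) K))
  have hJ : IsAdicComplete (Ideal.span (Set.range fun l => qS (X l))) Rb := by
    let _ : Algebra (MvPowerSeries (Fin n) K) Rb := qS.toAlgebra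
    have hfin : Module.Finite (MvPowerSeries (Fin n) K) Rb := Module.Finite.of_surjective
      (Algebra.linearMap (MvPowerSeries (Fin n) K) Rb) hsurj
    have h1 : (Ideal.span (Set.range (X : Fin n → MvPowerSeries (Fin n) K))).map
        (algebraMap (MvPowerSeries (Fin n) K) Rb) = Ideal.span (Set.range fun l => qS (X l)) := by
      rw [Ideal.map_span, ← Set.range_comp]
      rfl
    have hc : IsAdicComplete (Ideal.span (Set.range (X : Fin n → MvPowerSeries (Fin n) K)))
      (MvPowerSeries (Fin n) K) := inferInstance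
    exact isAdicComplete_finite _ htop h1.le (h1.ge.trans Ideal.le_radical)
  obtain ⟨q, hq⟩ := exists_evalHom (Ideal.span (Set.range fun l => qS (X l)))
    (algebraMap (MvPowerSeries (Fin r) K) Rb) (fun l => qS (X l))
    (fun l => Ideal.subset_span ⟨l, rfl⟩)
  have hq' : ∀ f : MvPolynomial (Fin n) (MvPowerSeries (Fin r) K),
      q (f : MvPowerSeries (Fin n) (MvPowerSeries (Fin r) K)) =
        MvPolynomial.aeval (fun l => qS (X l)) f := fun f => hq f
  refine ⟨q, hq', fun s => ?_⟩
  rw [← sub_eq_zero]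
  apply IsHausdorff.haus (I := Ideal.span (Set.range fun l => qS (X l))) inferInstance
  intro M
  rw [SModEq.zero, smul_eq_mul, Ideal.mul_top]
  obtain ⟨f, hf⟩ := exists_trunc s M
  have h2 : q (jS K r n s) - qS s = q (jS K r n (s - f)) - qS (s - f) := by
    rw [map_sub, map_sub, map_sub, jS_coe, hq', ← qS_coe qS hqC]
    ring
  rw [h2]
  refine Ideal.sub_mem _ ?_ (map_span_X_le qS M hf)
  have h3 := map_span_X_le (q.comp (jS K r n)) M hf
  have h4 : (fun l : Fin n => (q.comp (jS K r n)) (X l)) = fun l => qS (X l) := by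
    funext l
    rw [RingHom.comp_apply, jS_X, ← MvPolynomial.coe_X, hq', MvPolynomial.aeval_X]
  rw [h4] at h3
  exact h3

variable (ϖ : K) (hϖ : maximalIdeal K = Ideal.span {ϖ}) [IsPrecomplete (Ideal.span {ϖ}) K]

include hqC hsurj hrad hϖ in
/-- (L5) compatibility of the evaluation of power series with the algebra `Rb`. -/
theorem compat_S [Module.Finite (MvPowerSeries (Fin r) K) Rb]
    {W : Type*} [CommRing W] (φ : MvPowerSeries (Fin n) (MvPowerSeries (Fin r) K) →+* W)
    (I : Ideal W) (h : W)
    (hrel : ∀ f : MvPolynomial (Fin n) (MvPowerSeries (Fin r) K),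
      MvPolynomial.aeval (fun l => qS (X l)) f = 0 →
        h * φ (f : MvPowerSeries (Fin n) (MvPowerSeries (Fin r) K)) ∈ I)
    (s : MvPowerSeries (Fin n) K) (f : MvPolynomial (Fin n) (MvPowerSeries (Fin r) K))
    (hsf : qS s = MvPolynomial.aeval (fun l => qS (X l)) f) :
    h * (φ (jS K r n s) - φ (f : MvPowerSeries (Fin n) (MvPowerSeries (Fin r) K))) ∈ I := by
  have htop : Ideal.span (Set.range (X : Fin n → MvPowerSeries (Fin n) K)) ≠ ⊤ := by
    intro h
    have h2 : (1 : MvPowerSeries (Fin n) K) ∈ Ideal.span (Set.range X) := by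
      rw [h]
      trivial
    rw [CZ.mem_span_X_iff, map_one] at h2
    exact one_ne_zero h2
  obtain ⟨q, hq, hqS⟩ := exists_q qS hqC hsurj htop
  rw [← map_sub]
  apply phi_rel (fun l => qS (X l)) ϖ hϖ hrad (adj_surj qS hqC hsurj hrad) q hq φ I h hrel
  rw [map_sub, hqS, hq, hsf, sub_self]

end

end Vale.Agent.P177.Lfk
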