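import Mathlib

/-!
P177: Weierstrass division for `Λ[[x_1, .., x_n]]` by monic polynomials `F_l(x_l)` with lower
coefficients in `I`, `Λ` noetherian and `I`-adically complete.
-/

namespace Vale.Agent.P177.Lf

section pi

variable {L : Type*} [CommRing L] (I : Ideal L) {σ : Type*}

theorem mem_pow_smul_pi {m : ℕ} (hfg : (I ^ m).FG) (v : σ → L) :
    v ∈ (I ^ m • (⊤ : Submodule L (σ → L))) ↔ ∀ i, v i ∈ I ^ m := by
  constructor
  · intro h i
    have h2 : (LinearMap.proj i : (σ → L) →ₗ[L] L) v ∈
        Submodule.map (LinearMap.proj i : (σ → L) →ₗ[L] L)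
          (I ^ m • (⊤ : Submodule L (σ → L))) := Submodule.mem_map_of_mem h
    rw [Submodule.map_smul''] at h2
    have h3 := Submodule.smul_mono (le_refl (I ^ m)) (le_top : Submodule.map (LinearMap.proj i :
      (σ → L) →ₗ[L] L) (⊤ : Submodule L (σ → L)) ≤ ⊤) h2
    simpa using h3
  · intro h
    obtain ⟨s, e, he⟩ := Submodule.fg_iff_exists_fin_generating_family.1 hfg
    have h1 : ∀ i, ∃ b : Fin s → L, ∑ j, b j • e j = v i := by
      intro i
      have := h i
      rw [← he, Submodule.mem_span_range_iff_exists_fun] at this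
      exact this
    choose b hb using h1
    have h2 : v = ∑ j, e j • fun i => b i j := by
      ext i
      rw [Finset.sum_apply, ← hb i]
      refine Finset.sum_congr rfl fun j _ => ?_
      rw [Pi.smul_apply, smul_eq_mul, smul_eq_mul, mul_comm]
    rw [h2]
    refine Submodule.sum_mem _ fun j _ => Submodule.smul_mem_smul ?_ trivial
    rw [← he]
    exact Submodule.subset_span ⟨j, rfl⟩

theorem isPrecomplete_pi [IsNoetherianRing L] [IsPrecomplete I L] : IsPrecomplete I (σ → L) := by
  have key : ∀ (m : ℕ) (v : σ → L),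
      v ∈ (I ^ m • (⊤ : Submodule L (σ → L))) ↔ ∀ i, v i ∈ I ^ m := fun m v =>
    mem_pow_smul_pi I ((isNoetherianRing_iff_ideal_fg L).1 inferInstance _) v
  refine ⟨fun f hf => ?_⟩
  have h1 : ∀ i, ∃ l : L, ∀ m, f m i ≡ l [SMOD (I ^ m • ⊤ : Submodule L L)] := by
    intro i
    refine IsPrecomplete.prec ‹_› (f := fun m => f m i) fun {m m'} hm => ?_
    have h2 := hf hm
    rw [SModEq.sub_mem, key] at h2
    rw [SModEq.sub_mem, smul_eq_mul, Ideal.mul_top]
    exact h2 i
  choose l hl using h1
  refine ⟨l, fun m => ?_⟩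
  rw [SModEq.sub_mem, key]
  intro i
  have h2 := hl i m
  rw [SModEq.sub_mem, smul_eq_mul, Ideal.mul_top] at h2
  exact h2

theorem isHausdorff_pi [IsNoetherianRing L] [IsHausdorff I L] : IsHausdorff I (σ → L) := by
  have key : ∀ (m : ℕ) (v : σ → L),
      v ∈ (I ^ m • (⊤ : Submodule L (σ → L))) ↔ ∀ i, v i ∈ I ^ m := fun m v =>
    mem_pow_smul_pi I ((isNoetherianRing_iff_ideal_fg L).1 inferInstance _) v
  refine ⟨fun v hv => ?_⟩
  funext i
  refine IsHausdorff.haus ‹_› (v i) fun m => ?_
  have h2 := hv m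
  rw [SModEq.zero, key] at h2
  rw [SModEq.zero, smul_eq_mul, Ideal.mul_top]
  exact h2 i

end pi

section wdiv

variable {Λ : Type*} [CommRing Λ] {n : ℕ}

/-- `F(x_l)`. -/
noncomputable def px (l : Fin n) (F : Polynomial Λ) : MvPolynomial (Fin n) Λ :=
  Polynomial.aeval (MvPolynomial.X l) F

/-- the power series with coefficients in `I`. -/
def cI (I : Ideal Λ) : Ideal (MvPowerSeries (Fin n) Λ) where
  carrier := {f | ∀ β, MvPowerSeries.coeff β f ∈ I}
  add_mem' := by
    intro f g hf hg β
    rw [map_add]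
    exact add_mem (hf β) (hg β)
  zero_mem' := by
    intro β
    rw [map_zero]
    exact zero_mem _
  smul_mem' := by
    classical
    intro c f hf β
    rw [smul_eq_mul, MvPowerSeries.coeff_mul]
    exact Ideal.sum_mem _ fun x _ => Ideal.mul_mem_left _ _ (hf _)

theorem px_sub_mem (I : Ideal Λ) (l : Fin n) {F : Polynomial Λ} (hF : F.Monic)
    (hFI : ∀ i < F.natDegree, F.coeff i ∈ I) :
    (px l F : MvPowerSeries (Fin n) Λ) - MvPowerSeries.X l ^ F.natDegree ∈ cI I := by
  have h1 : px l F = MvPolynomial.X l ^ F.natDegree +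
      ∑ i ∈ Finset.range F.natDegree, MvPolynomial.C (F.coeff i) * MvPolynomial.X l ^ i := by
    conv_lhs => rw [px, hF.as_sum]
    rw [map_add, map_pow, Polynomial.aeval_X, map_sum]
    congr 1
    refine Finset.sum_congr rfl fun i _ => ?_
    rw [map_mul, map_pow, Polynomial.aeval_X, Polynomial.aeval_C]
    rfl
  rw [h1]
  have h2 : ((MvPolynomial.X l ^ F.natDegree +
      ∑ i ∈ Finset.range F.natDegree, MvPolynomial.C (F.coeff i) * MvPolynomial.X l ^ i :
        MvPolynomial (Fin n) Λ) : MvPowerSeries (Fin n) Λ) = MvPowerSeries.X l ^ F.natDegree +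
      ∑ i ∈ Finset.range F.natDegree, MvPowerSeries.C (F.coeff i) * MvPowerSeries.X l ^ i := by
    rw [← MvPolynomial.coeToMvPowerSeries.ringHom_apply, map_add, map_pow, map_sum]
    simp only [map_mul, map_pow, MvPolynomial.coeToMvPowerSeries.ringHom_apply,
      MvPolynomial.coe_X, MvPolynomial.coe_C]
  rw [h2, add_sub_cancel_left]
  refine Ideal.sum_mem _ fun i hi => Ideal.mul_mem_right _ _ ?_
  intro β
  classical
  rw [MvPowerSeries.coeff_C]
  split_ifs
  · exact hFI i (Finset.mem_range.1 hi)
  · exact zero_mem _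

variable [IsNoetherianRing Λ] (I : Ideal Λ) [IsAdicComplete I Λ]

theorem wdiv (F : Fin n → Polynomial Λ) (hF : ∀ l, (F l).Monic)
    (hFI : ∀ l, ∀ i < (F l).natDegree, (F l).coeff i ∈ I) (g : MvPowerSeries (Fin n) Λ) :
    ∃ (P : MvPolynomial (Fin n) Λ) (q : Fin n → MvPowerSeries (Fin n) Λ),
      g = P + ∑ l, (px l (F l) : MvPowerSeries (Fin n) Λ) * q l := by
  classical
  set N : Fin n → ℕ := fun l => (F l).natDegree with hN
  let Nf : Fin n →₀ ℕ := Finsupp.equivFunOnFinite.symm N
  let B : Finset (Fin n →₀ ℕ) := Finset.Iic Nf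
  let σ := ↥B ⊕ (Fin n × (Fin n →₀ ℕ))
  let G : (σ → Λ) → Fin n → MvPowerSeries (Fin n) Λ := fun v l => fun β => v (Sum.inr (l, β))
  let Q : (σ → Λ) → MvPolynomial (Fin n) Λ := fun v =>
    ∑ α : B, MvPolynomial.monomial α.1 (v (Sum.inl α))
  let Ψ : (σ → Λ) →ₗ[Λ] MvPowerSeries (Fin n) Λ :=
    { toFun := fun v => (Q v : MvPowerSeries (Fin n) Λ) +
        ∑ l, (px l (F l) : MvPowerSeries (Fin n) Λ) * G v l
      map_add' := by
        intro v w
        have h1 : Q (v + w) = Q v + Q w := by
          simp only [Q, Pi.add_apply, map_add, Finset.sum_add_distrib]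
        have h2 : ∀ l, G (v + w) l = G v l + G w l := fun l => rfl
        rw [h1, MvPolynomial.coe_add]
        simp only [h2, mul_add, Finset.sum_add_distrib]
        ring
      map_smul' := by
        intro c v
        have h1 : Q (c • v) = c • Q v := by
          simp only [Q, Pi.smul_apply, map_smul, Finset.smul_sum]
        have h2 : ∀ l, G (c • v) l = c • G v l := fun l => rfl
        rw [h1, MvPolynomial.coe_smul]
        simp only [h2, mul_smul_comm, ← Finset.smul_sum, RingHom.id_apply, smul_add] }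
  have hΨ : ∀ v, Ψ v = (Q v : MvPowerSeries (Fin n) Λ) +
    ∑ l, (px l (F l) : MvPowerSeries (Fin n) Λ) * G v l := fun v => rfl
  suffices hs : Function.Surjective Ψ by
    obtain ⟨v, hv⟩ := hs g
    exact ⟨Q v, G v, by rw [← hv, hΨ]⟩
  have i1 : IsPrecomplete I (σ → Λ) := isPrecomplete_pi I
  have i2 : IsHausdorff I (MvPowerSeries (Fin n) Λ) :=
    (isHausdorff_pi I : IsHausdorff I ((Fin n →₀ ℕ) → Λ))
  apply surjective_of_mkQ_comp_surjective (I := I)
  intro z
  obtain ⟨g, rfl⟩ := Submodule.mkQ_surjective _ z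
  let sel : (Fin n →₀ ℕ) → Option (Fin n) := fun β =>
    if h : ∃ l, N l ≤ β l then some h.choose else none
  have sel1 : ∀ β l, sel β = some l → N l ≤ β l := by
    intro β l h
    simp only [sel] at h
    split_ifs at h with h1
    rw [← Option.some_injective _ h]
    exact h1.choose_spec
  have sel2 : ∀ β, sel β = none → ∀ l, β l < N l := by
    intro β h l
    simp only [sel] at h
    split_ifs at h with h1
    push Not at h1
    exact h1 l
  let v : σ → Λ := Sum.elim (fun α => if sel α.1 = none then MvPowerSeries.coeff α.1 g else 0)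
    (fun x => if sel (x.2 + Finsupp.single x.1 (N x.1)) = some x.1 then
      MvPowerSeries.coeff (x.2 + Finsupp.single x.1 (N x.1)) g else 0)
  refine ⟨v, ?_⟩
  rw [LinearMap.comp_apply, ← sub_eq_zero, ← map_sub, Submodule.mkQ_apply,
    Submodule.Quotient.mk_eq_zero]
  -- the exact splitting
  have hsplit : g = (Q v : MvPowerSeries (Fin n) Λ) +
      ∑ l, MvPowerSeries.X l ^ N l * G v l := by
    ext β
    rw [map_add, map_sum, MvPolynomial.coeff_coe]
    have h1 : MvPolynomial.coeff β (Q v) =
        if sel β = none then MvPowerSeries.coeff β g else 0 := by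
      simp only [Q, MvPolynomial.coeff_sum, MvPolynomial.coeff_monomial]
      by_cases hβ : β ∈ B
      · rw [Finset.sum_eq_single (⟨β, hβ⟩ : B)]
        · rw [if_pos rfl]
          rfl
        · intro α _ hα
          rw [if_neg]
          intro h
          exact hα (Subtype.ext h)
        · intro h
          exact absurd (Finset.mem_univ _) h
      · rw [Finset.sum_eq_zero, if_neg]
        · intro h
          apply hβ
          simp only [B, Finset.mem_Iic]
          intro l
          exact (sel2 β h l).le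
        · intro α _
          rw [if_neg]
          rintro rfl
          exact hβ α.2
    have h2 : ∀ l, MvPowerSeries.coeff β (MvPowerSeries.X l ^ N l * G v l) =
        if sel β = some l then MvPowerSeries.coeff β g else 0 := by
      intro l
      rw [MvPowerSeries.X_pow_eq, MvPowerSeries.coeff_monomial_mul]
      by_cases h : Finsupp.single l (N l) ≤ β
      · rw [if_pos h, one_mul]
        have h3 : MvPowerSeries.coeff (β - Finsupp.single l (N l)) (G v l) =
            if sel (β - Finsupp.single l (N l) + Finsupp.single l (N l)) = some l then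
              MvPowerSeries.coeff (β - Finsupp.single l (N l) + Finsupp.single l (N l)) g
            else 0 := rfl
        rw [h3, tsub_add_cancel_of_le h]
      · rw [if_neg h, if_neg]
        intro h4
        exact h (Finsupp.single_le_iff.2 (sel1 β l h4))
    rw [h1, Finset.sum_congr rfl fun l _ => h2 l]
    cases hs : sel β with
    | none => simp
    | some l => simp
  have hmem : Ψ v - g ∈ cI (n := n) I := by
    have h1 : Ψ v - g = ∑ l, ((px l (F l) : MvPowerSeries (Fin n) Λ) -
        MvPowerSeries.X l ^ N l) * G v l := by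
      rw [hΨ]
      conv_lhs => rw [hsplit]
      simp only [sub_mul, Finset.sum_sub_distrib]
      ring
    rw [h1]
    exact Ideal.sum_mem _ fun l _ => Ideal.mul_mem_right _ _ (px_sub_mem I l (hF l) (hFI l))
  have h3 := (mem_pow_smul_pi I (m := 1) (σ := Fin n →₀ ℕ)
    ((isNoetherianRing_iff_ideal_fg Λ).1 inferInstance _) (Ψ v - g)).2
    (by rw [pow_one]; exact hmem)
  rw [pow_one] at h3
  exact h3

end wdiv

end Vale.Agent.P177.Lf
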